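import Vale.Agent.P042.Interval

/-!
The prime two: a finite-state recursion on base-four digits.
-/

namespace Vale.Agent.P042

open Finset

/-- Interval families modulo `2 * 4 ^ k` with separate windows for even and odd points. -/
def G2 (k : ℕ) (e0 e1 o0 o1 lam Z : ℝ) : Prop :=
  ∃ (ι : Type) (_ : Fintype ι) (x : ι → ℤ) (lo hi : ι → ℝ),
    (∀ i, lo i < hi i ∧ (x i % 2 = 0 → e0 ≤ lo i ∧ hi i ≤ e1) ∧
      (x i % 2 = 1 → o0 ≤ lo i ∧ hi i ≤ o1)) ∧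
      (∀ i j, i ≠ j → ∀ n : ℤ, (2 * 4 ^ k : ℤ) ∣ x i - x j - n ^ 2 → hi i ≤ lo j) ∧
        Z ≤ ∑ i, (hi i - lo i) ^ lam

theorem G2.empty (k : ℕ) (e0 e1 o0 o1 lam : ℝ) : G2 k e0 e1 o0 o1 lam 0 :=
  ⟨Empty, inferInstance, fun _ => 0, fun _ => 0, fun _ => 0, by simp, by simp, by simp⟩

theorem G2.weaken {k : ℕ} {e0 e1 o0 o1 lam Z Z' : ℝ} (h : G2 k e0 e1 o0 o1 lam Z) (hZ : Z' ≤ Z) :
    G2 k e0 e1 o0 o1 lam Z' := by
  obtain ⟨ι, _, x, lo, hi, h1, h2, h3⟩ := h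
  exact ⟨ι, _, x, lo, hi, h1, h2, hZ.trans h3⟩

theorem G2.swap {k : ℕ} {e0 e1 o0 o1 lam Z : ℝ} (h : G2 k e0 e1 o0 o1 lam Z) :
    G2 k o0 o1 e0 e1 lam Z := by
  obtain ⟨ι, _, x, lo, hi, h1, h2, h3⟩ := h
  refine ⟨ι, inferInstance, fun i => x i + 1, lo, hi, fun i => ⟨(h1 i).1, fun h => (h1 i).2.2 ?_,
    fun h => (h1 i).2.1 ?_⟩, fun i j hij n hd => h2 i j hij n ?_, h3⟩
  · dsimp only at h; omega
  · dsimp only at h; omega
  · have e : x i + 1 - (x j + 1) - n ^ 2 = x i - x j - n ^ 2 := by ring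
    rwa [e] at hd

theorem G2.affine {k : ℕ} {e0 e1 o0 o1 lam Z : ℝ} (a s : ℝ) (hs : 0 < s)
    (h : G2 k e0 e1 o0 o1 lam Z) :
    G2 k (a + s * e0) (a + s * e1) (a + s * o0) (a + s * o1) lam (s ^ lam * Z) := by
  obtain ⟨ι, _, x, lo, hi, h1, h2, h3⟩ := h
  refine ⟨ι, inferInstance, x, fun i => a + s * lo i, fun i => a + s * hi i, fun i => ⟨?_, fun h => ?_,
    fun h => ?_⟩, fun i j hij n hd => ?_, ?_⟩
  · have := (h1 i).1
    dsimp only; gcongr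
  · obtain ⟨b1, b2⟩ := (h1 i).2.1 h
    dsimp only; constructor <;> gcongr
  · obtain ⟨b1, b2⟩ := (h1 i).2.2 h
    dsimp only; constructor <;> gcongr
  · have := h2 i j hij n hd
    dsimp only; gcongr
  · calc s ^ lam * Z ≤ s ^ lam * ∑ i, (hi i - lo i) ^ lam := by gcongr
      _ = _ := by
        rw [Finset.mul_sum]
        refine Finset.sum_congr rfl fun i _ => ?_
        rw [← Real.mul_rpow hs.le (by linarith [(h1 i).1])]
        congr 1; ring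

theorem sq_mod_eight (n : ℤ) : n ^ 2 % 8 = 0 ∨ n ^ 2 % 8 = 1 ∨ n ^ 2 % 8 = 4 := by
  have h : n % 8 = 0 ∨ n % 8 = 1 ∨ n % 8 = 2 ∨ n % 8 = 3 ∨ n % 8 = 4 ∨ n % 8 = 5 ∨ n % 8 = 6 ∨
      n % 8 = 7 := by omega
  rcases h with h | h | h | h | h | h | h | h <;> simp [pow_two, Int.mul_emod, h]

theorem G2.step {k : ℕ} {e0 e1 o0 o1 lam : ℝ} (a b : ℕ → ℝ) (Z : Fin 4 → ℝ)
    (hc : ∀ r : Fin 4, G2 k (a r) (b r) (a (r + 4)) (b (r + 4)) lam (Z r))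
    (hord : ∀ r < 8, a r < b r → a ((r + 1) % 8) < b ((r + 1) % 8) → b ((r + 1) % 8) ≤ a r)
    (hin : ∀ r < 8, a r < b r → (r % 2 = 0 → e0 ≤ a r ∧ b r ≤ e1) ∧
      (r % 2 = 1 → o0 ≤ a r ∧ b r ≤ o1)) :
    G2 (k + 1) e0 e1 o0 o1 lam (∑ r, Z r) := by
  choose ι inst x lo hi h1 h2 h3 using hc
  have cl : ∀ (r : Fin 4) (i : ι r), ∃ c : ℕ, c < 8 ∧ ((r : ℕ) + 4 * x r i) % 8 = c ∧
      a c ≤ lo r i ∧ hi r i ≤ b c := by
    intro r i
    have hr := r.2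
    rcases Int.emod_two_eq_zero_or_one (x r i) with h | h
    · exact ⟨r, by omega, by omega, (h1 r i).2.1 h⟩
    · exact ⟨r + 4, by omega, by push_cast; omega, (h1 r i).2.2 h⟩
  refine ⟨Σ r : Fin 4, ι r, inferInstance, fun p => ((p.1 : ℕ) : ℤ) + 4 * x p.1 p.2,
    fun p => lo p.1 p.2, fun p => hi p.1 p.2, ?_, ?_, ?_⟩
  · rintro ⟨r, i⟩
    obtain ⟨c, c1, c2, c3, c4⟩ := cl r i
    have w := (h1 r i).1
    obtain ⟨d1, d2⟩ := hin c c1 (by linarith)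
    dsimp only
    refine ⟨w, fun h => ?_, fun h => ?_⟩
    · obtain ⟨f1, f2⟩ := d1 (by omega)
      exact ⟨by linarith, by linarith⟩
    · obtain ⟨f1, f2⟩ := d2 (by omega)
      exact ⟨by linarith, by linarith⟩
  · rintro ⟨r, i⟩ ⟨s, j⟩ hne n hd
    dsimp only at hd ⊢
    by_cases hrs : r = s
    · subst hrs
      have hij : i ≠ j := fun e => hne (by rw [e])
      have e : ((r : ℕ) : ℤ) + 4 * x r i - (((r : ℕ) : ℤ) + 4 * x r j) - n ^ 2
          = (2 : ℤ) ^ 2 * (x r i - x r j) - n ^ 2 := by ring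
      have e2 : (2 * 4 ^ (k + 1) : ℤ) = 2 ^ 2 * (2 * 4 ^ k) := by ring
      rw [e, e2] at hd
      obtain ⟨m, hm⟩ := sq_shift (by norm_num) hd
      exact h2 r i j hij m hm
    · obtain ⟨c, c1, c2, c3, c4⟩ := cl r i
      obtain ⟨d, d1, d2, d3, d4⟩ := cl s j
      have w := (h1 r i).1
      have w' := (h1 s j).1
      have hd8 : (8 : ℤ) ∣ ((r : ℕ) : ℤ) + 4 * x r i - (((s : ℕ) : ℤ) + 4 * x s j) - n ^ 2 :=
        Dvd.dvd.trans ⟨4 ^ k, by ring⟩ hd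
      have hrs' : (r : ℕ) ≠ s := fun e => hrs (Fin.ext e)
      have hr := r.2
      have hs := s.2
      have hcd : c = (d + 1) % 8 := by
        have := sq_mod_eight n
        omega
      have := hord d d1 (by linarith) (by rw [← hcd]; linarith)
      rw [← hcd] at this
      linarith
  · rw [Fintype.sum_sigma]
    exact Finset.sum_le_sum fun r _ => h3 r

theorem G2.base {e0 e1 o0 o1 lam : ℝ} (hl : 0 ≤ lam) (h : e0 + 1 ≤ e1 ∨ o0 + 1 ≤ o1) :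
    G2 0 e0 e1 o0 o1 lam 1 := by
  rcases h with h | h
  · refine ⟨Unit, inferInstance, fun _ => 0, fun _ => e0, fun _ => e1, ?_, by simp, ?_⟩
    · intro i; refine ⟨by linarith, by simp, by simp⟩
    · simpa using Real.one_le_rpow (by linarith) hl
  · refine ⟨Unit, inferInstance, fun _ => 1, fun _ => o0, fun _ => o1, ?_, by simp, ?_⟩
    · intro i; refine ⟨by linarith, by simp, by simp⟩
    · simpa using Real.one_le_rpow (by linarith) hl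

theorem G2.toIG {k : ℕ} {lam Z : ℝ} (h : G2 k 0 1 0 1 lam Z) :
    ∃ K : ℕ, IG ((2 ^ (k + 1)) ^ 2) lam Z ((1 / 2) ^ K) := by
  obtain ⟨ι, _, x, lo, hi, h1, h2, h3⟩ := h
  have ex : ∀ i, ∃ K : ℕ, (1 / 2 : ℝ) ^ K < hi i - lo i := fun i =>
    exists_pow_lt_of_lt_one (by linarith [(h1 i).1]) (by norm_num)
  choose f hf using ex
  refine ⟨univ.sup f, ι, inferInstance, x, lo, hi, fun i => ?_, fun i j hij n hd => h2 i j hij n ?_, h3⟩
  · have a : (1 / 2 : ℝ) ^ (univ.sup f) ≤ (1 / 2) ^ f i :=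
      pow_le_pow_of_le_one (by norm_num) (by norm_num) (Finset.le_sup (mem_univ i))
    have b := hf i
    rcases Int.emod_two_eq_zero_or_one (x i) with h | h
    · obtain ⟨c1, c2⟩ := (h1 i).2.1 h
      exact ⟨c1, by linarith, c2⟩
    · obtain ⟨c1, c2⟩ := (h1 i).2.2 h
      exact ⟨c1, by linarith, c2⟩
  · refine Dvd.dvd.trans ⟨2, ?_⟩ hd
    push_cast
    rw [← pow_mul, show (4 : ℤ) = 2 ^ 2 by norm_num, ← pow_mul]
    ring

theorem good_two {lam al c G : ℝ} (hl : 0 ≤ lam) (hc : 0 < c) (hG : (4 : ℝ) ^ al < G)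
    (h : ∀ k, G2 k 0 1 0 1 lam (c * G ^ k)) : Good 2 lam al := by
  have p : (0 : ℝ) < 4 ^ al := by positivity
  have hth : 1 < G / 4 ^ al := by rw [lt_div_iff₀ p]; linarith
  obtain ⟨k, -, hk⟩ := exists_pow_gt (C := 4 ^ al / c) hth
  obtain ⟨K, hK⟩ := (h k).toIG
  refine hK.good hl (by positivity) ⟨k + 1, dvd_rfl⟩ ?_
  have e : ((((2 ^ (k + 1) : ℕ) : ℝ)) ^ 2) ^ al = ((4 : ℝ) ^ al) ^ k * 4 ^ al := by
    rw [← pow_succ, ← pow_rpow_comm (by norm_num)]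
    congr 1
    push_cast
    rw [← pow_mul, mul_comm, pow_mul]; norm_num
  rw [e]
  rw [div_pow, div_lt_div_iff₀ hc (by positivity)] at hk
  linarith

end Vale.Agent.P042
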