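import Vale.Agent.P042.Binary

/-!
Boolean certificate checkers and their soundness.
-/

namespace Vale.Agent.P042

open Finset

theorem rpow_cert {u D w H a b : ℕ} (hD : 0 < D) (hH : 0 < H) (hb : 0 < b)
    (h : u ^ b * H ^ a ≤ w ^ a * D ^ b) :
    (u : ℝ) / D ≤ ((w : ℝ) / H) ^ ((a : ℝ) / b) := by
  have hDr : (0 : ℝ) < D := by exact_mod_cast hD
  have hHr : (0 : ℝ) < H := by exact_mod_cast hH
  have h1 : ((u : ℝ) / D) ^ b ≤ ((w : ℝ) / H) ^ a := by
    rw [div_pow, div_pow, div_le_div_iff₀ (by positivity) (by positivity)]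
    exact_mod_cast h
  have h2 : (((w : ℝ) / H) ^ ((a : ℝ) / b)) ^ b = ((w : ℝ) / H) ^ a := by
    rw [← Real.rpow_natCast, ← Real.rpow_mul (by positivity), div_mul_cancel₀ _ (by positivity),
      Real.rpow_natCast]
  rw [← h2] at h1
  exact (pow_le_pow_iff_left₀ (by positivity) (by positivity) hb.ne').1 h1

theorem rpow_cert2 {X U D c d : ℕ} (hD : 0 < D) (hd : 0 < d)
    (h : X ^ c * D ^ d < U ^ d) : (X : ℝ) ^ ((c : ℝ) / d) < (U : ℝ) / D := by
  have hDr : (0 : ℝ) < D := by exact_mod_cast hD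
  have h1 : (X : ℝ) ^ c < ((U : ℝ) / D) ^ d := by
    rw [div_pow, lt_div_iff₀ (by positivity)]
    exact_mod_cast h
  have h2 : ((X : ℝ) ^ ((c : ℝ) / d)) ^ d = (X : ℝ) ^ c := by
    rw [← Real.rpow_natCast, ← Real.rpow_mul (by positivity), div_mul_cancel₀ _ (by positivity),
      Real.rpow_natCast]
  rw [← h2] at h1
  exact lt_of_pow_lt_pow_left₀ d (by positivity) h1

/-- All pairs of a list pass the test. -/
def pwB {α : Type} (f : α → α → Bool) : List α → Bool
  | [] => true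
  | a :: l => l.all (f a) && pwB f l

theorem pwB_sound {α : Type} (f : α → α → Bool) :
    ∀ l : List α, pwB f l = true → l.Pairwise fun a b => f a b = true
  | [], _ => List.Pairwise.nil
  | a :: l, h => by
    simp only [pwB, Bool.and_eq_true, List.all_eq_true] at h
    exact List.Pairwise.cons h.1 (pwB_sound f l h.2)

/-- One ordered pair of points is compatible. -/
def okOrd (m mask : ℕ) (p q : ℕ × ℕ × ℕ × ℕ) : Bool :=
  Nat.ble p.2.2.1 q.2.1 || !(mask.testBit ((p.1 + (m - q.1)) % m))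

/-- Checker for a gadget modulo a squarefree number. -/
def chkOdd (m mask H K a b D c d : ℕ) (L : List (ℕ × ℕ × ℕ × ℕ)) : Bool :=
  (List.range m).all (fun n => mask.testBit (n * n % m)) &&
  L.all (fun p => Nat.ble p.1 m && Nat.ble (p.2.1 + 1) p.2.2.1 && Nat.ble p.2.2.1 H &&
    Nat.ble (p.2.2.2 ^ b * H ^ a) ((p.2.2.1 - p.2.1) ^ a * D ^ b)) &&
  pwB (fun p q => okOrd m mask p q && okOrd m mask q p) L &&
  Nat.ble H (2 ^ K) && Nat.ble 1 H && Nat.ble 1 D && Nat.ble 1 b && Nat.ble 1 d &&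
  Nat.ble ((m ^ 2) ^ c * D ^ d + 1) ((m * (L.map fun p => p.2.2.2).sum) ^ d)

theorem okOrd_sound {m mask : ℕ} (hm : 0 < m)
    (hmask : ∀ n < m, mask.testBit (n * n % m) = true) {p q : ℕ × ℕ × ℕ × ℕ}
    (hq : q.1 ≤ m) (h : okOrd m mask p q = true) (n : ℤ)
    (hd : (m : ℤ) ∣ (p.1 : ℤ) - q.1 - n ^ 2) : p.2.2.1 ≤ q.2.1 := by
  simp only [okOrd, Bool.or_eq_true, Nat.ble_eq, Bool.not_eq_true'] at h
  rcases h with h | h
  · exact h
  · exfalso
    have hmz : (0 : ℤ) < m := by exact_mod_cast hm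
    obtain ⟨r, hr⟩ : ∃ r : ℕ, (r : ℤ) = n % m := ⟨(n % m).toNat,
      Int.toNat_of_nonneg (Int.emod_nonneg _ hmz.ne')⟩
    have hr2 : r < m := by
      have := Int.emod_lt_of_pos n hmz
      omega
    have h1 := hmask r hr2
    have e : r * r % m = (p.1 + (m - q.1)) % m := by
      apply (Nat.modEq_iff_dvd).2
      push_cast [Nat.cast_sub hq]
      obtain ⟨c, hc⟩ := hd
      have e1 := Int.emod_add_mul_ediv n m
      rw [← hr] at e1
      exact ⟨c + 1 + (n / m) * (2 * r + m * (n / m)), by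
        linear_combination hc - (n + r + m * (n / m)) * e1⟩
    rw [e, h] at h1
    exact Bool.false_ne_true h1

theorem chkOdd_sound {m mask H K a b D c d : ℕ} {L : List (ℕ × ℕ × ℕ × ℕ)} (hm : Squarefree m)
    (h : chkOdd m mask H K a b D c d L = true) : Good m ((a : ℝ) / b) ((c : ℝ) / d) := by
  simp only [chkOdd, Bool.and_eq_true, List.all_eq_true, Nat.ble_eq, List.mem_range] at h
  obtain ⟨⟨⟨⟨⟨⟨⟨⟨h1, h2⟩, h3⟩, h4⟩, h5⟩, h6⟩, h7⟩, h8⟩, h9⟩ := h
  have hm0 : 0 < m := Nat.pos_of_ne_zero hm.ne_zero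
  have hHr : (0 : ℝ) < H := by exact_mod_cast h5
  have hDr : (0 : ℝ) < D := by exact_mod_cast h6
  have hp := List.pairwise_iff_getElem.1 (pwB_sound _ _ h3)
  have hIG : IG m ((a : ℝ) / b) ((((L.map fun p => p.2.2.2).sum : ℕ) : ℝ) / D) ((1 / 2) ^ K) := by
    refine ⟨Fin L.length, inferInstance, fun i => (L[i].1 : ℤ), fun i => (L[i].2.1 : ℝ) / H,
      fun i => (L[i].2.2.1 : ℝ) / H, fun i => ?_, fun i j hij n hd => ?_, ?_⟩
    · obtain ⟨⟨⟨b1, b2⟩, b3⟩, b4⟩ := h2 L[i] (List.getElem_mem _)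
      refine ⟨by positivity, ?_, ?_⟩
      · have c1 : (1 / 2 : ℝ) ^ K ≤ 1 / H := by
          rw [one_div_pow]
          apply one_div_le_one_div_of_le hHr
          exact_mod_cast h4
        have c2 : (L[i].2.1 : ℝ) / H + 1 / H ≤ (L[i].2.2.1 : ℝ) / H := by
          rw [← add_div]
          gcongr
          exact_mod_cast b2
        dsimp only
        linarith
      · dsimp only
        rw [div_le_one hHr]
        exact_mod_cast b3
    · have : okOrd m mask L[i] L[j] = true := by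
        rcases lt_or_gt_of_ne hij with hl | hl
        · have := hp i j i.2 j.2 hl
          rw [Bool.and_eq_true] at this
          exact this.1
        · have := hp j i j.2 i.2 hl
          rw [Bool.and_eq_true] at this
          exact this.2
      have h' := okOrd_sound hm0 h1 (h2 L[j] (List.getElem_mem _)).1.1.1 this n hd
      dsimp only
      gcongr
    · have e : (((L.map fun p => p.2.2.2).sum : ℕ) : ℝ) = ∑ i : Fin L.length, (L[i].2.2.2 : ℝ) := by
        rw [← Nat.cast_sum]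
        congr 1
        rw [← Fin.sum_univ_fun_getElem]
        rfl
      rw [e, Finset.sum_div]
      refine Finset.sum_le_sum fun i _ => ?_
      obtain ⟨⟨⟨b1, b2⟩, b3⟩, b4⟩ := h2 L[i] (List.getElem_mem _)
      have := rpow_cert h6 h5 h7 b4
      rw [Nat.cast_sub (by omega), sub_div] at this
      exact this
  refine (hIG.free hm).good (by positivity) hm0 ⟨1, by simp⟩ ?_
  have := rpow_cert2 h6 h8 (Nat.lt_of_succ_le h9)
  push_cast at this ⊢
  rw [mul_div_assoc] at this
  exact this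

/-- A child record: state index, swap flag, shift, scale, lower bound for the scale power. -/
abbrev Ch := ℕ × Bool × ℕ × ℕ × ℕ

/-- A state record: windows, weight, children. -/
abbrev St := (ℕ × ℕ × ℕ × ℕ) × ℕ × List Ch

/-- Default state. -/
def st0 : St := ((0, 0, 0, 0), 0, [])

/-- Default child. -/
def ch0 : Ch := (0, false, 0, 0, 0)

/-- Windows of a child, in fine units. -/
def win (L : List St) (c : Ch) : ℕ × ℕ × ℕ × ℕ :=
  let g := (L.getD c.1 st0).1
  let A := c.2.2.1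
  let S := c.2.2.2.1
  if c.2.1 then (A + S * g.2.2.1, A + S * g.2.2.2, A + S * g.1, A + S * g.2.1)
  else (A + S * g.1, A + S * g.2.1, A + S * g.2.2.1, A + S * g.2.2.2)

/-- Left ends of the eight classes. -/
def aa (L : List St) (s : St) (r : ℕ) : ℕ :=
  if r < 4 then (win L (s.2.2.getD r ch0)).1 else (win L (s.2.2.getD (r - 4) ch0)).2.2.1

/-- Right ends of the eight classes. -/
def bb (L : List St) (s : St) (r : ℕ) : ℕ :=
  if r < 4 then (win L (s.2.2.getD r ch0)).2.1 else (win L (s.2.2.getD (r - 4) ch0)).2.2.2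

/-- Contribution of one child. -/
def contrib (L : List St) (s : St) (r : ℕ) : ℕ :=
  (s.2.2.getD r ch0).2.2.2.2 * (L.getD (s.2.2.getD r ch0).1 st0).2.1

/-- Check of one state. -/
def chkSt (L : List St) (H a b D V gn gd : ℕ) (s : St) : Bool :=
  (Nat.ble (s.1.1 + 1) s.1.2.1 || Nat.ble (s.1.2.2.1 + 1) s.1.2.2.2) && Nat.ble s.2.1 V &&
  (List.range 4).all (fun r =>
    Nat.ble ((s.2.2.getD r ch0).1 + 1) L.length &&
    (Nat.beq (s.2.2.getD r ch0).2.2.2.2 0 || Nat.ble 1 (s.2.2.getD r ch0).2.2.2.1) &&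
    Nat.ble ((s.2.2.getD r ch0).2.2.2.2 ^ b * H ^ a) ((s.2.2.getD r ch0).2.2.2.1 ^ a * D ^ b)) &&
  (List.range 8).all (fun r =>
    Nat.ble (bb L s r) (aa L s r) ||
      ((Nat.ble (bb L s ((r + 1) % 8)) (aa L s ((r + 1) % 8)) ||
          Nat.ble (bb L s ((r + 1) % 8)) (aa L s r)) &&
        (if r % 2 = 0 then Nat.ble (s.1.1 * H) (aa L s r) && Nat.ble (bb L s r) (s.1.2.1 * H)
          else Nat.ble (s.1.2.2.1 * H) (aa L s r) && Nat.ble (bb L s r) (s.1.2.2.2 * H)))) &&
  Nat.ble (gn * D * s.2.1)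
    (gd * (contrib L s 0 + contrib L s 1 + contrib L s 2 + contrib L s 3))

theorem chkSt_all {L : List St} {H a b D V gn gd : ℕ} (hH : 0 < H) (hb : 0 < b) (hD : 0 < D)
    (hV : 0 < V) (hgd : 0 < gd) (hL : ∀ s ∈ L, chkSt L H a b D V gn gd s = true) (k : ℕ) :
    ∀ s ∈ L, G2 k s.1.1 s.1.2.1 s.1.2.2.1 s.1.2.2.2 ((a : ℝ) / b)
      ((s.2.1 : ℝ) / V * ((gn : ℝ) / gd) ^ k) := by
  have hHr : (0 : ℝ) < H := by exact_mod_cast hH
  have hDr : (0 : ℝ) < D := by exact_mod_cast hD
  have hVr : (0 : ℝ) < V := by exact_mod_cast hV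
  have hgr : (0 : ℝ) < gd := by exact_mod_cast hgd
  induction k with
  | zero =>
    intro s hs
    have h := hL s hs
    simp only [chkSt, Bool.and_eq_true, Bool.or_eq_true, Nat.ble_eq] at h
    obtain ⟨⟨⟨⟨h1, h2⟩, -⟩, -⟩, -⟩ := h
    refine (G2.base (by positivity) ?_).weaken ?_
    · rcases h1 with h1 | h1
      · left; exact_mod_cast h1
      · right; exact_mod_cast h1
    · rw [pow_zero, mul_one, div_le_one hVr]; exact_mod_cast h2
  | succ k ih =>
    intro s hs
    have h := hL s hs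
    simp only [chkSt, Bool.and_eq_true, Bool.or_eq_true, Nat.ble_eq, List.all_eq_true,
      List.mem_range, Nat.beq_eq] at h
    obtain ⟨⟨⟨-, h3⟩, h4⟩, h5⟩ := h
    refine (G2.step (fun r => (aa L s r : ℝ) / H) (fun r => (bb L s r : ℝ) / H)
      (fun r => (contrib L s r : ℝ) / (D * V) * ((gn : ℝ) / gd) ^ k) ?_ ?_ ?_).weaken ?_
    · intro r
      obtain ⟨⟨c1, c2⟩, c3⟩ := h3 r r.2
      set c := s.2.2.getD r ch0 with hc
      have ec : contrib L s r = c.2.2.2.2 * (L.getD c.1 st0).2.1 := rfl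
      rcases c2 with c2 | c2
      · rw [ec, c2]; simpa using G2.empty _ _ _ _ _ _
      have hmem : L.getD c.1 st0 ∈ L := by
        rw [List.getD_eq_getElem _ _ (by omega)]; exact List.getElem_mem _
      have g := ih _ hmem
      set t := L.getD c.1 st0 with ht
      have hS : (0 : ℝ) < (c.2.2.2.1 : ℝ) / H := by
        have : (0 : ℝ) < c.2.2.2.1 := by exact_mod_cast c2
        positivity
      have hu := rpow_cert hD hH hb c3
      have r4 : ¬ ((r : ℕ) + 4 < 4) := by omega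
      have hZ : (contrib L s r : ℝ) / (D * V) * ((gn : ℝ) / gd) ^ k
          ≤ ((c.2.2.2.1 : ℝ) / H) ^ ((a : ℝ) / b) * ((t.2.1 : ℝ) / V * ((gn : ℝ) / gd) ^ k) := by
        rw [ec]
        push_cast
        calc (c.2.2.2.2 : ℝ) * t.2.1 / (D * V) * ((gn : ℝ) / gd) ^ k
            = (c.2.2.2.2 : ℝ) / D * ((t.2.1 : ℝ) / V * ((gn : ℝ) / gd) ^ k) := by
              field_simp
          _ ≤ _ := by gcongr
      have key : ∀ z : ℕ, (((c.2.2.1 + c.2.2.2.1 * z : ℕ) : ℝ)) / H
          = (c.2.2.1 : ℝ) / H + (c.2.2.2.1 : ℝ) / H * z := by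
        intro z; push_cast; field_simp
      simp only [aa, bb, r.2, if_true, r4, if_false, Nat.add_sub_cancel, ← hc, win, ← ht]
      cases hsw : c.2.1
      · simp only [Bool.false_eq_true, if_false, key]
        exact (g.affine _ _ hS).weaken hZ
      · simp only [if_true, key]
        exact (g.swap.affine _ _ hS).weaken hZ
    · intro r hr l1 l2
      have l1' : aa L s r < bb L s r := by
        have := (div_lt_div_iff_of_pos_right hHr).1 l1
        exact_mod_cast this
      have l2' : aa L s ((r + 1) % 8) < bb L s ((r + 1) % 8) := by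
        have := (div_lt_div_iff_of_pos_right hHr).1 l2
        exact_mod_cast this
      rcases h4 r hr with h | ⟨h, -⟩
      · omega
      · rcases h with h | h
        · omega
        · gcongr
    · intro r hr l1
      have l1' : aa L s r < bb L s r := by
        have := (div_lt_div_iff_of_pos_right hHr).1 l1
        exact_mod_cast this
      rcases h4 r hr with h | ⟨-, h⟩
      · omega
      · constructor
        · intro h0
          rw [if_pos h0, Bool.and_eq_true, Nat.ble_eq, Nat.ble_eq] at h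
          rw [le_div_iff₀ hHr, div_le_iff₀ hHr]
          exact ⟨by exact_mod_cast h.1, by exact_mod_cast h.2⟩
        · intro h0
          rw [if_neg (by omega), Bool.and_eq_true, Nat.ble_eq, Nat.ble_eq] at h
          rw [le_div_iff₀ hHr, div_le_iff₀ hHr]
          exact ⟨by exact_mod_cast h.1, by exact_mod_cast h.2⟩
    · rw [Fin.sum_univ_four]
      have h5r : (gn : ℝ) * D * s.2.1 ≤
          gd * (contrib L s 0 + contrib L s 1 + contrib L s 2 + contrib L s 3) := by
        exact_mod_cast h5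
      have e : (s.2.1 : ℝ) / V * ((gn : ℝ) / gd) ^ (k + 1)
          = ((gn : ℝ) * D * s.2.1) / (gd * (D * V)) * ((gn : ℝ) / gd) ^ k := by
        rw [pow_succ]; field_simp
      rw [e]
      calc ((gn : ℝ) * D * s.2.1) / (gd * (D * V)) * ((gn : ℝ) / gd) ^ k
          ≤ (gd * (contrib L s 0 + contrib L s 1 + contrib L s 2 + contrib L s 3))
            / (gd * (D * V)) * ((gn : ℝ) / gd) ^ k := by gcongr
        _ = _ := by
          simp only [Fin.val_zero, Fin.val_one, Fin.val_two]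
          have : ((3 : Fin 4) : ℕ) = 3 := rfl
          rw [this]
          field_simp

/-- Check of the whole automaton. -/
def chkTwo (L : List St) (H a b D V gn gd c d : ℕ) : Bool :=
  L.all (chkSt L H a b D V gn gd) && Nat.ble 1 H && Nat.ble 1 b && Nat.ble 1 D && Nat.ble 1 V &&
  Nat.ble 1 gd && Nat.ble 1 d && Nat.ble 1 L.length && Nat.ble 1 (L.getD 0 st0).2.1 &&
  Nat.beq (L.getD 0 st0).1.1 0 && Nat.beq (L.getD 0 st0).1.2.1 H &&
  Nat.beq (L.getD 0 st0).1.2.2.1 0 && Nat.beq (L.getD 0 st0).1.2.2.2 H &&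
  Nat.ble (4 ^ c * gd ^ d + 1) (gn ^ d)

theorem chkTwo_sound {L : List St} {H a b D V gn gd c d : ℕ}
    (h : chkTwo L H a b D V gn gd c d = true) : Good 2 ((a : ℝ) / b) ((c : ℝ) / d) := by
  simp only [chkTwo, Bool.and_eq_true, List.all_eq_true, Nat.ble_eq, Nat.beq_eq] at h
  obtain ⟨⟨⟨⟨⟨⟨⟨⟨⟨⟨⟨⟨⟨h1, h2⟩, h3⟩, h4⟩, h5⟩, h6⟩, h7⟩, h8⟩, h9⟩, e1⟩, e2⟩, e3⟩, e4⟩, h10⟩ := h
  have hHr : (0 : ℝ) < H := by exact_mod_cast h2
  have hVr : (0 : ℝ) < V := by exact_mod_cast h5
  have hmem : L.getD 0 st0 ∈ L := by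
    rw [List.getD_eq_getElem _ _ (by omega)]; exact List.getElem_mem _
  have hv : (0 : ℝ) < (L.getD 0 st0).2.1 := by exact_mod_cast h9
  refine good_two (c := (1 / H : ℝ) ^ ((a : ℝ) / b) * (((L.getD 0 st0).2.1 : ℝ) / V))
    (G := (gn : ℝ) / gd) (by positivity) (by positivity) ?_ fun k => ?_
  · have := rpow_cert2 h6 h7 (Nat.lt_of_succ_le h10)
    exact_mod_cast this
  · have g := (chkSt_all h2 h3 h4 h5 h6 h1 k _ hmem).affine 0 (1 / H) (by positivity)
    rw [e1, e2, e3, e4] at g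
    have e : (0 : ℝ) + 1 / H * H = 1 := by field_simp; ring
    simp only [Nat.cast_zero, mul_zero, add_zero, e] at g
    rwa [mul_assoc]

end Vale.Agent.P042
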