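import Mathlib

/-!
Ranked gadgets for square-difference-free sets.
-/

namespace Vale.Agent.P042

open Finset

/-- A uniform gadget: `s` integers with ranks below `t`; whenever a difference is a square
modulo `Q` the rank strictly increases. -/
def UG (Q s t : ℕ) : Prop :=
  ∃ (ι : Type) (_ : Fintype ι) (x : ι → ℤ) (h : ι → ℕ),
    s ≤ Fintype.card ι ∧ (∀ i, h i < t) ∧
      ∀ i j, i ≠ j → ∀ n : ℤ, (Q : ℤ) ∣ x i - x j - n ^ 2 → h i < h j

/-- An interval gadget of mass at least `Z` and minimal width at least `d`. -/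
def IG (Q : ℕ) (lam Z d : ℝ) : Prop :=
  ∃ (ι : Type) (_ : Fintype ι) (x : ι → ℤ) (lo hi : ι → ℝ),
    (∀ i, 0 ≤ lo i ∧ lo i + d ≤ hi i ∧ hi i ≤ 1) ∧
      (∀ i j, i ≠ j → ∀ n : ℤ, (Q : ℤ) ∣ x i - x j - n ^ 2 → hi i ≤ lo j) ∧
        Z ≤ ∑ i, (hi i - lo i) ^ lam

theorem sq_shift {q Q : ℤ} (hq : q ≠ 0) {a n : ℤ} (h : q ^ 2 * Q ∣ q ^ 2 * a - n ^ 2) :
    ∃ m : ℤ, Q ∣ a - m ^ 2 := by
  have h1 : q ^ 2 ∣ n ^ 2 := by
    have h2 : q ^ 2 ∣ q ^ 2 * a - n ^ 2 := (Dvd.intro _ rfl).trans h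
    have h3 : q ^ 2 ∣ q ^ 2 * a := Dvd.intro _ rfl
    have := dvd_sub h3 h2
    simpa using this
  obtain ⟨m, rfl⟩ : q ∣ n := (Int.pow_dvd_pow_iff (by norm_num)).1 h1
  refine ⟨m, ?_⟩
  have h4 : q ^ 2 * a - (q * m) ^ 2 = q ^ 2 * (a - m ^ 2) := by ring
  rw [h4] at h
  exact (mul_dvd_mul_iff_left (pow_ne_zero 2 hq)).1 h

theorem UG.mono {Q s t t' : ℕ} (h : UG Q s t) (ht : t ≤ t') : UG Q s t' := by
  obtain ⟨ι, _, x, r, h1, h2, h3⟩ := h
  exact ⟨ι, _, x, r, h1, fun i => (h2 i).trans_le ht, h3⟩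

theorem UG.one : UG 1 1 1 :=
  ⟨Unit, inferInstance, fun _ => 0, fun _ => 0, by simp, by simp, by simp⟩

theorem UG.lex {q Q s t s' t' : ℕ} (hq : q ≠ 0) (h : UG (q ^ 2) s t) (h' : UG Q s' t') :
    UG (q ^ 2 * Q) (s * s') (t * t') := by
  obtain ⟨ι, _, x, r, h1, h2, h3⟩ := h
  obtain ⟨κ, _, y, u, g1, g2, g3⟩ := h'
  refine ⟨ι × κ, inferInstance, fun p => x p.1 + (q : ℤ) ^ 2 * y p.2,
    fun p => r p.1 * t' + u p.2, ?_, ?_, ?_⟩
  · simpa using Nat.mul_le_mul h1 g1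
  · rintro ⟨i, k⟩
    have a1 := h2 i
    have a2 := g2 k
    dsimp only
    nlinarith
  · rintro ⟨i, k⟩ ⟨j, l⟩ hne n hd
    dsimp only at hd ⊢
    push_cast at hd
    by_cases hij : i = j
    · subst hij
      have hkl : k ≠ l := fun e => hne (by rw [e])
      have e : x i + (q : ℤ) ^ 2 * y k - (x i + (q : ℤ) ^ 2 * y l) - n ^ 2
          = (q : ℤ) ^ 2 * (y k - y l) - n ^ 2 := by ring
      rw [e] at hd
      obtain ⟨m, hm⟩ := sq_shift (by exact_mod_cast hq) hd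
      have := g3 k l hkl m hm
      omega
    · have hd2 : ((q ^ 2 : ℕ) : ℤ) ∣ x i - x j - n ^ 2 := by
        push_cast
        obtain ⟨c, hc⟩ := hd
        exact ⟨Q * c - (y k - y l), by linear_combination hc⟩
      have a1 := h3 i j hij n hd2
      have a2 := g2 k
      have a3 : (r i + 1) * t' ≤ r j * t' := Nat.mul_le_mul_right _ a1
      nlinarith

theorem UG.pow {q s t : ℕ} (hq : q ≠ 0) (h : UG (q ^ 2) s t) (k : ℕ) :
    UG ((q ^ k) ^ 2) (s ^ k) (t ^ k) := by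
  induction k with
  | zero => simpa using UG.one
  | succ k ih =>
    have := UG.lex hq h ih
    have e : (q ^ (k + 1)) ^ 2 = q ^ 2 * (q ^ k) ^ 2 := by ring
    rw [e, pow_succ' s, pow_succ' t]
    exact this

theorem UG.crt {Q s t Q' s' t' : ℕ} (hc : Nat.Coprime Q Q') (h : UG Q s t) (h' : UG Q' s' t') :
    UG (Q * Q') (s * s') (t + t') := by
  obtain ⟨ι, _, x, r, h1, h2, h3⟩ := h
  obtain ⟨κ, _, y, u, g1, g2, g3⟩ := h'
  obtain ⟨a, b, hab⟩ : IsCoprime (Q : ℤ) (Q' : ℤ) := Nat.isCoprime_iff_coprime.2 hc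
  refine ⟨ι × κ, inferInstance, fun p => x p.1 * (b * Q') + y p.2 * (a * Q),
    fun p => r p.1 + u p.2, ?_, ?_, ?_⟩
  · simpa using Nat.mul_le_mul h1 g1
  · rintro ⟨i, k⟩
    have a1 := h2 i
    have a2 := g2 k
    dsimp only
    omega
  · rintro ⟨i, k⟩ ⟨j, l⟩ hne n hd
    dsimp only at hd ⊢
    push_cast at hd
    have d1 : (Q : ℤ) ∣ x i - x j - n ^ 2 := by
      obtain ⟨c, hc⟩ := hd
      exact ⟨Q' * c + a * (x i - x j - y k + y l),
        by linear_combination hc - (x i - x j) * hab⟩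
    have d2 : (Q' : ℤ) ∣ y k - y l - n ^ 2 := by
      obtain ⟨c, hc⟩ := hd
      exact ⟨Q * c + b * (y k - y l - x i + x j),
        by linear_combination hc - (y k - y l) * hab⟩
    by_cases hij : i = j
    · subst hij
      have hkl : k ≠ l := fun e => hne (by rw [e])
      have := g3 k l hkl n d2
      omega
    · have a1 := h3 i j hij n d1
      by_cases hkl : k = l
      · subst hkl; omega
      · have := g3 k l hkl n d2
        omega

/-- A uniform gadget gives a square-difference-free set of positive integers. -/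
theorem UG.set {Q s t : ℕ} (hQ : 0 < Q) (h : UG Q s t) :
    ∃ A : Finset ℕ, A ⊆ Finset.Icc 1 (Q * t) ∧ s ≤ A.card ∧
      ∀ a ∈ A, ∀ b ∈ A, ∀ n : ℕ, 1 ≤ n → (a : ℤ) - b ≠ (n : ℤ) ^ 2 := by
  classical
  obtain ⟨ι, _, x, r, h1, h2, h3⟩ := h
  have hQ' : (0 : ℤ) < Q := by exact_mod_cast hQ
  let F : ι → ℕ := fun i => (x i % Q).toNat + Q * r i + 1
  have hF : ∀ i, (F i : ℤ) = x i % Q + Q * r i + 1 := by
    intro i
    have := Int.emod_nonneg (x i) hQ'.ne'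
    simp only [F]
    push_cast
    rw [Int.toNat_of_nonneg this]
  have key : ∀ i j, i ≠ j → ∀ n : ℤ, (F i : ℤ) - F j = n ^ 2 → (F i : ℤ) < F j := by
    intro i j hij n hn
    have hd : (Q : ℤ) ∣ x i - x j - n ^ 2 := by
      rw [← hn, hF, hF]
      refine ⟨x i / Q - x j / Q - r i + r j, ?_⟩
      have e1 := Int.emod_add_mul_ediv (x i) Q
      have e2 := Int.emod_add_mul_ediv (x j) Q
      linear_combination (-1 : ℤ) * e1 + e2
    have a1 := h3 i j hij n hd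
    have a2 := Int.emod_lt_of_pos (x i) hQ'
    have a3 := Int.emod_nonneg (x j) hQ'.ne'
    have a4 : (r i : ℤ) + 1 ≤ r j := by exact_mod_cast a1
    rw [hF, hF]
    nlinarith
  have inj : Function.Injective F := by
    intro i j hij
    by_contra hne
    have := key i j hne 0 (by rw [hij]; simp)
    rw [hij] at this
    exact lt_irrefl _ this
  refine ⟨Finset.univ.image F, ?_, ?_, ?_⟩
  · intro a ha
    obtain ⟨i, -, rfl⟩ := Finset.mem_image.1 ha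
    rw [Finset.mem_Icc]
    refine ⟨by simp [F], ?_⟩
    have a2 := Int.emod_lt_of_pos (x i) hQ'
    have a4 : (r i : ℤ) + 1 ≤ t := by exact_mod_cast h2 i
    have : (F i : ℤ) ≤ ((Q * t : ℕ) : ℤ) := by
      rw [hF]; push_cast; nlinarith
    exact_mod_cast this
  · rw [Finset.card_image_of_injective _ inj]
    simpa using h1
  · intro a ha b hb n hn he
    obtain ⟨i, -, rfl⟩ := Finset.mem_image.1 ha
    obtain ⟨j, -, rfl⟩ := Finset.mem_image.1 hb
    have hpos : (0 : ℤ) < (n : ℤ) ^ 2 := by positivity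
    by_cases hij : i = j
    · subst hij; omega
    · have := key i j hij n he
      omega

/-- The main quality predicate. -/
def Good (P : ℕ) (lam al : ℝ) : Prop :=
  ∃ q s t : ℕ, 0 < q ∧ (∃ k, q ∣ P ^ k) ∧ 2 ≤ t ∧ UG (q ^ 2) s t ∧
    (t : ℝ) ^ lam * ((q : ℝ) ^ 2) ^ al < s

theorem exists_pow_gt {th C : ℝ} (h : 1 < th) : ∃ f : ℕ, 1 ≤ f ∧ C < th ^ f := by
  obtain ⟨f, hf⟩ := pow_unbounded_of_one_lt C h
  exact ⟨f + 1, by omega, hf.trans_le (pow_le_pow_right₀ h.le (by omega))⟩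

theorem pow_rpow_comm {x : ℝ} (hx : 0 ≤ x) (k : ℕ) (a : ℝ) : (x ^ k) ^ a = (x ^ a) ^ k := by
  rw [← Real.rpow_natCast, ← Real.rpow_mul hx, mul_comm, Real.rpow_mul hx, Real.rpow_natCast]

theorem Good.mul {P P' : ℕ} {lam lam' al : ℝ} (hl : 0 ≤ lam) (hl' : 0 ≤ lam')
    (hc : Nat.Coprime P P') (h : Good P lam al) (h' : Good P' lam' al) :
    Good (P * P') (lam + lam') al := by
  obtain ⟨q, s, t, hq, ⟨k, hk⟩, ht, hU, hs⟩ := h
  obtain ⟨q', s', t', hq', ⟨k', hk'⟩, ht', hU', hs'⟩ := h'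
  have htr : (2 : ℝ) ≤ t := by exact_mod_cast ht
  have htr' : (2 : ℝ) ≤ t' := by exact_mod_cast ht'
  have hqr : (0 : ℝ) < q := by exact_mod_cast hq
  have hqr' : (0 : ℝ) < q' := by exact_mod_cast hq'
  set B : ℝ := (t : ℝ) ^ lam * ((q : ℝ) ^ 2) ^ al with hB
  set B' : ℝ := (t' : ℝ) ^ lam' * ((q' : ℝ) ^ 2) ^ al with hB'
  have hBp : 0 < B := by positivity
  have hBp' : 0 < B' := by positivity
  have hth : 1 < (s : ℝ) / B := by rw [lt_div_iff₀ hBp]; linarith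
  obtain ⟨f, hf1, hf⟩ := exists_pow_gt (C := (t' : ℝ) ^ lam' * 2 ^ (lam + lam')) hth
  set H := t ^ f with hH
  have hH1 : 1 ≤ H := Nat.one_le_pow _ _ (by omega)
  set g := Nat.log t' H with hg
  have g1 : t' ^ g ≤ H := Nat.pow_log_le_self _ (by omega)
  have g2 : H < t' ^ (g + 1) := Nat.lt_pow_succ_log_self (by omega) _
  have hcop : Nat.Coprime ((q ^ f) ^ 2) ((q' ^ g) ^ 2) := by
    have : Nat.Coprime q q' :=
      Nat.Coprime.coprime_dvd_left hk (Nat.Coprime.coprime_dvd_right hk' (hc.pow k k'))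
    exact (this.pow f g).pow 2 2
  have hU2 := (UG.crt hcop (hU.pow hq.ne' f) (hU'.pow hq'.ne' g)).mono
    (t' := 2 * H) (by omega)
  refine ⟨q ^ f * q' ^ g, s ^ f * s' ^ g, 2 * H, by positivity, ⟨k * f + k' * g, ?_⟩, by omega,
    by rw [mul_pow]; exact hU2, ?_⟩
  · rw [mul_pow]
    apply Nat.mul_dvd_mul
    · exact (pow_dvd_pow_of_dvd hk f).trans (by rw [← pow_mul]; exact pow_dvd_pow _ (by omega))
    · exact (pow_dvd_pow_of_dvd hk' g).trans (by rw [← pow_mul]; exact pow_dvd_pow _ (by omega))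
  · push_cast
    have hHr : (H : ℝ) = (t : ℝ) ^ f := by rw [hH]; push_cast; rfl
    have hHp : (0 : ℝ) < H := by exact_mod_cast hH1
    have g2r : (H : ℝ) ≤ (t' : ℝ) ^ g * t' := by
      rw [← pow_succ]; exact_mod_cast g2.le
    have e1 : (((q : ℝ) ^ f * (q' : ℝ) ^ g) ^ 2) ^ al
        = (((q : ℝ) ^ 2) ^ al) ^ f * (((q' : ℝ) ^ 2) ^ al) ^ g := by
      rw [← pow_rpow_comm (by positivity), ← pow_rpow_comm (by positivity),
        ← Real.mul_rpow (by positivity) (by positivity)]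
      congr 1; ring
    have e2 : (2 * (H : ℝ)) ^ (lam + lam') = 2 ^ (lam + lam') * (((t : ℝ) ^ lam) ^ f * H ^ lam') := by
      rw [Real.mul_rpow (by positivity) hHp.le, Real.rpow_add hHp, ← pow_rpow_comm (by positivity),
        ← hHr]
    have e3 : (H : ℝ) ^ lam' ≤ ((t' : ℝ) ^ lam') ^ g * (t' : ℝ) ^ lam' := by
      rw [← pow_rpow_comm (by positivity), ← Real.mul_rpow (by positivity) (by positivity)]
      exact Real.rpow_le_rpow hHp.le g2r hl'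
    have e4 : B' ^ g ≤ (s' : ℝ) ^ g := pow_le_pow_left₀ hBp'.le hs'.le g
    have e5 : (t' : ℝ) ^ lam' * 2 ^ (lam + lam') * B ^ f < (s : ℝ) ^ f := by
      rw [div_pow, lt_div_iff₀ (by positivity)] at hf
      exact hf
    rw [e1, e2]
    calc 2 ^ (lam + lam') * (((t : ℝ) ^ lam) ^ f * H ^ lam') *
          ((((q : ℝ) ^ 2) ^ al) ^ f * (((q' : ℝ) ^ 2) ^ al) ^ g)
        ≤ 2 ^ (lam + lam') * (((t : ℝ) ^ lam) ^ f * (((t' : ℝ) ^ lam') ^ g * (t' : ℝ) ^ lam')) *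
          ((((q : ℝ) ^ 2) ^ al) ^ f * (((q' : ℝ) ^ 2) ^ al) ^ g) := by gcongr
      _ = ((t' : ℝ) ^ lam' * 2 ^ (lam + lam') * B ^ f) * B' ^ g := by
          rw [hB, hB', mul_pow, mul_pow]; ring
      _ < (s : ℝ) ^ f * B' ^ g := by gcongr
      _ ≤ (s : ℝ) ^ f * (s' : ℝ) ^ g := by gcongr

theorem exists_subset {N M : ℕ} (h : N ≤ M) : Finset.Icc 1 N ⊆ Finset.Icc 1 M :=
  Finset.Icc_subset_Icc_right h

theorem Good.final {P : ℕ} {lam al : ℝ} (hal : 0 ≤ al) (hl : al ≤ lam) (h : Good P lam al) :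
    ∃ c : ℝ, 0 < c ∧ ∀ N : ℕ, 1 ≤ N → ∃ A : Finset ℕ, A ⊆ Finset.Icc 1 N ∧
      (∀ a ∈ A, ∀ b ∈ A, ∀ n : ℕ, 1 ≤ n → (a : ℤ) - b ≠ (n : ℤ) ^ 2) ∧
        c * (N : ℝ) ^ al ≤ A.card := by
  obtain ⟨q, s, t, hq, -, ht, hU, hs⟩ := h
  have htr : (2 : ℝ) ≤ t := by exact_mod_cast ht
  have hqr : (0 : ℝ) < q := by exact_mod_cast hq
  set M := q ^ 2 * t with hM
  have hM2 : 2 ≤ M := by
    have : 1 ≤ q ^ 2 := Nat.one_le_pow _ _ hq
    nlinarith
  have hMr : (0 : ℝ) < M := by exact_mod_cast (by omega : 0 < M)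
  have hs2 : (M : ℝ) ^ al ≤ s := by
    have e : (M : ℝ) ^ al = (t : ℝ) ^ al * ((q : ℝ) ^ 2) ^ al := by
      rw [← Real.mul_rpow (by positivity) (by positivity), hM]; push_cast; congr 1; ring
    have : (t : ℝ) ^ al ≤ (t : ℝ) ^ lam := Real.rpow_le_rpow_of_exponent_le (by linarith) hl
    rw [e]
    exact le_trans (by gcongr) hs.le
  refine ⟨((M : ℝ) ^ al)⁻¹, by positivity, fun N hN => ?_⟩
  set k := Nat.log M N with hk
  have g1 : M ^ k ≤ N := Nat.pow_log_le_self _ (by omega)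
  have g2 : N < M ^ (k + 1) := Nat.lt_pow_succ_log_self (by omega) _
  obtain ⟨A, hA1, hA2, hA3⟩ := (hU.pow hq.ne' k).set (by positivity)
  refine ⟨A, hA1.trans (exists_subset ?_), hA3, ?_⟩
  · calc (q ^ k) ^ 2 * t ^ k = M ^ k := by rw [hM]; ring
      _ ≤ N := g1
  · have a1 : (N : ℝ) ^ al ≤ ((M : ℝ) ^ al) ^ k * (M : ℝ) ^ al := by
      rw [← pow_succ, ← pow_rpow_comm hMr.le]
      apply Real.rpow_le_rpow (by positivity) _ hal
      exact_mod_cast g2.le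
    have a2 : ((M : ℝ) ^ al) ^ k ≤ (s : ℝ) ^ k := pow_le_pow_left₀ (by positivity) hs2 k
    have a3 : (s : ℝ) ^ k ≤ A.card := by exact_mod_cast hA2
    rw [inv_mul_le_iff₀ (by positivity)]
    calc (N : ℝ) ^ al ≤ ((M : ℝ) ^ al) ^ k * (M : ℝ) ^ al := a1
      _ ≤ A.card * (M : ℝ) ^ al := by gcongr; exact a2.trans a3
      _ = _ := mul_comm _ _

end Vale.Agent.P042
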