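import Vale.Agent.P042.Gadget

/-!
Interval gadgets and their uniformization.
-/

namespace Vale.Agent.P042

open Finset

theorem IG.one (lam : ℝ) : IG 1 lam 1 1 :=
  ⟨Unit, inferInstance, fun _ => 0, fun _ => 0, fun _ => 1, by simp, by simp, by simp⟩

theorem IG.lex {q Q : ℕ} {lam Z d Z' d' : ℝ} (hq : q ≠ 0) (hd : 0 ≤ d) (hd' : 0 ≤ d')
    (hZ' : 0 ≤ Z') (hZ : 0 ≤ Z) (h : IG (q ^ 2) lam Z d) (h' : IG Q lam Z' d') :
    IG (q ^ 2 * Q) lam (Z * Z') (d * d') := by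
  obtain ⟨ι, _, x, lo, hi, h1, h2, h3⟩ := h
  obtain ⟨κ, _, y, lo', hi', g1, g2, g3⟩ := h'
  refine ⟨ι × κ, inferInstance, fun p => x p.1 + (q : ℤ) ^ 2 * y p.2,
    fun p => lo p.1 + (hi p.1 - lo p.1) * lo' p.2,
    fun p => lo p.1 + (hi p.1 - lo p.1) * hi' p.2, ?_, ?_, ?_⟩
  · rintro ⟨i, k⟩
    obtain ⟨a1, a2, a3⟩ := h1 i
    obtain ⟨b1, b2, b3⟩ := g1 k
    dsimp only
    have w : 0 ≤ hi i - lo i := by linarith
    refine ⟨by positivity, ?_, by nlinarith⟩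
    have : d * d' ≤ (hi i - lo i) * (hi' k - lo' k) :=
      mul_le_mul (by linarith) (by linarith) hd' w
    linarith
  · rintro ⟨i, k⟩ ⟨j, l⟩ hne n hdv
    dsimp only at hdv ⊢
    push_cast at hdv
    obtain ⟨a1, a2, a3⟩ := h1 i
    obtain ⟨c1, c2, c3⟩ := h1 j
    obtain ⟨b1, b2, b3⟩ := g1 k
    obtain ⟨e1, e2, e3⟩ := g1 l
    have w : 0 ≤ hi i - lo i := by linarith
    have w' : 0 ≤ hi j - lo j := by linarith
    by_cases hij : i = j
    · subst hij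
      have hkl : k ≠ l := fun e => hne (by rw [e])
      have e : x i + (q : ℤ) ^ 2 * y k - (x i + (q : ℤ) ^ 2 * y l) - n ^ 2
          = (q : ℤ) ^ 2 * (y k - y l) - n ^ 2 := by ring
      rw [e] at hdv
      obtain ⟨m, hm⟩ := sq_shift (by exact_mod_cast hq) hdv
      have := g2 k l hkl m hm
      nlinarith
    · have hd2 : ((q ^ 2 : ℕ) : ℤ) ∣ x i - x j - n ^ 2 := by
        push_cast
        obtain ⟨c, hc⟩ := hdv
        exact ⟨Q * c - (y k - y l), by linear_combination hc⟩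
      have := h2 i j hij n hd2
      have s1 : (hi i - lo i) * hi' k ≤ hi i - lo i := by nlinarith
      have s2 : 0 ≤ (hi j - lo j) * lo' l := by positivity
      linarith
  · rw [Fintype.sum_prod_type]
    calc Z * Z' ≤ (∑ i, (hi i - lo i) ^ lam) * ∑ k, (hi' k - lo' k) ^ lam :=
          mul_le_mul h3 g3 hZ' (hZ.trans h3)
      _ = _ := by
          rw [Finset.sum_mul_sum]
          refine Finset.sum_congr rfl fun i _ => Finset.sum_congr rfl fun k _ => ?_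
          obtain ⟨a1, a2, a3⟩ := h1 i
          obtain ⟨b1, b2, b3⟩ := g1 k
          rw [← Real.mul_rpow (by linarith) (by linarith)]
          congr 1; ring

theorem IG.pow {q : ℕ} {lam Z d : ℝ} (hq : q ≠ 0) (hd : 0 ≤ d) (hZ : 0 ≤ Z)
    (h : IG (q ^ 2) lam Z d) (k : ℕ) : IG ((q ^ k) ^ 2) lam (Z ^ k) (d ^ k) := by
  induction k with
  | zero => simpa using IG.one lam
  | succ k ih =>
    have := IG.lex hq hd (by positivity) (by positivity) hZ h ih
    have e : (q ^ (k + 1)) ^ 2 = q ^ 2 * (q ^ k) ^ 2 := by ring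
    rw [e, pow_succ' Z, pow_succ' d]
    exact this

/-- Free digits: a gadget modulo a squarefree `m` lifts to `m ^ 2` with `m` times the mass. -/
theorem IG.free {m : ℕ} {lam Z d : ℝ} (hm : Squarefree m) (h : IG m lam Z d) :
    IG (m ^ 2) lam (m * Z) d := by
  obtain ⟨ι, _, x, lo, hi, h1, h2, h3⟩ := h
  have hm0 : m ≠ 0 := hm.ne_zero
  refine ⟨Fin m × ι, inferInstance, fun p => x p.2 + (m : ℤ) * (p.1 : ℕ),
    fun p => lo p.2, fun p => hi p.2, fun p => h1 p.2, ?_, ?_⟩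
  · rintro ⟨f, i⟩ ⟨g, j⟩ hne n hdv
    dsimp only at hdv ⊢
    push_cast at hdv
    obtain ⟨c, hc⟩ := hdv
    by_cases hij : i = j
    · subst hij
      exfalso
      have a1 : (m : ℤ) ∣ n ^ 2 := ⟨((f : ℕ) : ℤ) - (g : ℕ) - m * c, by linear_combination -hc⟩
      have hm' : Squarefree (m : ℤ) := Int.squarefree_natCast.2 hm
      obtain ⟨u, rfl⟩ : (m : ℤ) ∣ n := (hm'.dvd_pow_iff_dvd (by norm_num)).1 a1
      have hmz : (m : ℤ) ≠ 0 := by exact_mod_cast hm0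
      have a2 : ((f : ℕ) : ℤ) - (g : ℕ) = m * (c + u ^ 2) := by
        apply mul_left_cancel₀ hmz
        linear_combination hc
      have a3 : (m : ℤ) ∣ ((f : ℕ) : ℤ) - (g : ℕ) := ⟨_, a2⟩
      have f1 := f.2
      have g1 := g.2
      have a4 : ((f : ℕ) : ℤ) - (g : ℕ) = 0 := by
        apply Int.eq_zero_of_abs_lt_dvd a3
        rw [abs_lt]; constructor <;> omega
      apply hne
      have : f = g := Fin.ext (by omega)
      rw [this]
    · exact h2 i j hij n ⟨m * c - (((f : ℕ) : ℤ) - (g : ℕ)), by linear_combination hc⟩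
  · rw [Fintype.sum_prod_type]
    simp only [Finset.sum_const, Finset.card_univ, Fintype.card_fin, nsmul_eq_mul]
    gcongr

/-- Uniformization by dyadic pigeonholing. -/
theorem IG.unif {Q K : ℕ} {lam Z : ℝ} (hl : 0 ≤ lam) (h : IG Q lam Z ((1 / 2) ^ K)) :
    ∃ s t : ℕ, 2 ≤ t ∧ UG Q s t ∧ (t : ℝ) ^ lam * Z ≤ (K + 1) * 4 ^ lam * s := by
  classical
  obtain ⟨ι, _, x, lo, hi, h1, h2, h3⟩ := h
  have ex : ∀ i, ∃ k : ℕ, (1 / 2 : ℝ) ^ k ≤ hi i - lo i := fun i => ⟨K, by linarith [(h1 i).2.1]⟩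
  let lev : ι → ℕ := fun i => Nat.find (ex i)
  have l1 : ∀ i, lev i ≤ K := fun i => Nat.find_min' (ex i) (by linarith [(h1 i).2.1])
  have l2 : ∀ i, (1 / 2 : ℝ) ^ lev i ≤ hi i - lo i := fun i => Nat.find_spec (ex i)
  have l3 : ∀ i, hi i - lo i ≤ 2 * (1 / 2 : ℝ) ^ lev i := by
    intro i
    rcases Nat.eq_zero_or_pos (lev i) with h0 | h0
    · rw [h0]; linarith [(h1 i).1, (h1 i).2.2]
    · have := Nat.find_min (ex i) (m := lev i - 1) (by change lev i - 1 < lev i; omega)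
      have e : (1 / 2 : ℝ) ^ (lev i - 1) = 2 * (1 / 2) ^ lev i := by
        conv_rhs => rw [show lev i = (lev i - 1) + 1 by omega, pow_succ]
        ring
      rw [e] at this
      linarith
  have hsum : ∑ i, (hi i - lo i) ^ lam
      = ∑ k ∈ range (K + 1), ∑ i ∈ univ.filter (fun i => lev i = k), (hi i - lo i) ^ lam := by
    rw [Finset.sum_fiberwise_of_maps_to]
    intro i _
    exact Finset.mem_range.2 (Nat.lt_succ_of_le (l1 i))
  obtain ⟨k, hk, hk2⟩ : ∃ k ∈ range (K + 1),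
      Z / (K + 1) ≤ ∑ i ∈ univ.filter (fun i => lev i = k), (hi i - lo i) ^ lam := by
    apply Finset.exists_le_of_sum_le (by simp)
    rw [← hsum]
    simp only [Finset.sum_const, Finset.card_range, nsmul_eq_mul]
    push_cast
    rw [mul_div_cancel₀ _ (by positivity)]
    exact h3
  let S := univ.filter (fun i => lev i = k)
  have hS : ∀ i ∈ S, lev i = k := fun i hi => (Finset.mem_filter.1 hi).2
  have hb : ∑ i ∈ S, (hi i - lo i) ^ lam ≤ S.card * (2 * (1 / 2 : ℝ) ^ k) ^ lam := by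
    rw [← nsmul_eq_mul]
    apply Finset.sum_le_card_nsmul
    intro i hi'
    apply Real.rpow_le_rpow (le_trans (by positivity) (l2 i)) _ hl
    rw [← hS i hi']; exact l3 i
  have p2 : (0 : ℝ) < 2 ^ k := by positivity
  have inv : (1 / 2 : ℝ) ^ k * 2 ^ k = 1 := by rw [← mul_pow]; norm_num
  have wk : ∀ i ∈ S, lo i * 2 ^ k + 1 ≤ hi i * 2 ^ k := by
    intro i hi'
    have a := l2 i
    rw [hS i hi'] at a
    nlinarith
  refine ⟨S.card, 2 ^ (k + 1), ?_, ⟨S, inferInstance, fun i => x i, fun i => ⌊lo i * 2 ^ k⌋₊,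
    by simp, ?_, ?_⟩, ?_⟩
  · calc 2 = 2 ^ 1 := rfl
      _ ≤ 2 ^ (k + 1) := Nat.pow_le_pow_right (by norm_num) (by omega)
  · rintro ⟨i, hi'⟩
    dsimp only
    have a := wk i hi'
    obtain ⟨a1, a2, a3⟩ := h1 i
    rw [Nat.floor_lt (by positivity)]
    push_cast
    rw [pow_succ]
    nlinarith
  · rintro ⟨i, hi'⟩ ⟨j, hj'⟩ hne n hdv
    dsimp only at hdv ⊢
    have hij : i ≠ j := fun e => hne (Subtype.ext e)
    have a := h2 i j hij n hdv
    have b := wk i hi'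
    have c : lo i * 2 ^ k + 1 ≤ lo j * 2 ^ k := by nlinarith
    have d := Nat.floor_le_floor c
    rw [Nat.floor_add_one (by have := (h1 i).1; positivity)] at d
    omega
  · have e : (((2 ^ (k + 1) : ℕ) : ℝ)) ^ lam * (2 * (1 / 2 : ℝ) ^ k) ^ lam = 4 ^ lam := by
      rw [← Real.mul_rpow (by positivity) (by positivity)]
      congr 1
      push_cast
      rw [pow_succ]
      linear_combination 4 * inv
    have a : Z ≤ (K + 1) * (S.card * (2 * (1 / 2 : ℝ) ^ k) ^ lam) := by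
      have := hk2.trans hb
      rwa [div_le_iff₀ (by positivity), mul_comm] at this
    calc (((2 ^ (k + 1) : ℕ) : ℝ)) ^ lam * Z
        ≤ (((2 ^ (k + 1) : ℕ) : ℝ)) ^ lam * ((K + 1) * (S.card * (2 * (1 / 2 : ℝ) ^ k) ^ lam)) := by
          gcongr
      _ = (K + 1) * ((((2 ^ (k + 1) : ℕ) : ℝ)) ^ lam * (2 * (1 / 2 : ℝ) ^ k) ^ lam) * S.card := by
          ring
      _ = _ := by rw [e]

theorem exists_lin_lt_pow {th C : ℝ} (K : ℕ) (h : 1 < th) (hC : 0 ≤ C) :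
    ∃ e : ℕ, (((K * e : ℕ) : ℝ) + 1) * C < th ^ e := by
  obtain ⟨u, hu0, rfl⟩ : ∃ u : ℝ, 0 < u ∧ th = 1 + u := ⟨th - 1, by linarith, by ring⟩
  obtain ⟨n, hn⟩ := exists_nat_gt (((2 * K + 1 : ℝ) * C) / u ^ 2 + 1)
  have hn1 : (1 : ℝ) < n := by
    have : 0 ≤ ((2 * K + 1 : ℝ) * C) / u ^ 2 := by positivity
    linarith
  refine ⟨2 * n, ?_⟩
  have b : 1 + n * u ≤ (1 + u) ^ n := one_add_mul_le_pow (by linarith) n
  have b2 : (n * u) ^ 2 ≤ (1 + u) ^ (2 * n) := by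
    rw [mul_comm 2 n, pow_mul]
    apply pow_le_pow_left₀ (by positivity)
    linarith
  have c : (2 * K + 1 : ℝ) * C < n * u ^ 2 := by
    have : ((2 * K + 1 : ℝ) * C) / u ^ 2 < n := by linarith
    rwa [div_lt_iff₀ (by positivity)] at this
  push_cast
  have d : (K * (2 * (n : ℝ)) + 1) * C ≤ n * ((2 * K + 1 : ℝ) * C) := by
    have : (K * (2 * (n : ℝ)) + 1) ≤ n * (2 * K + 1) := by nlinarith
    nlinarith
  have d2 : n * ((2 * K + 1 : ℝ) * C) < n * (n * u ^ 2) := by gcongr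
  nlinarith

theorem IG.good {P q K : ℕ} {lam al Z : ℝ} (hl : 0 ≤ lam) (hq : 0 < q) (hP : ∃ k, q ∣ P ^ k)
    (h : IG (q ^ 2) lam Z ((1 / 2) ^ K)) (hZ : ((q : ℝ) ^ 2) ^ al < Z) : Good P lam al := by
  have hqr : (0 : ℝ) < q := by exact_mod_cast hq
  have hB : (0 : ℝ) < ((q : ℝ) ^ 2) ^ al := by positivity
  have hth : 1 < Z / ((q : ℝ) ^ 2) ^ al := by rw [lt_div_iff₀ hB]; linarith
  obtain ⟨e, he⟩ := exists_lin_lt_pow (C := 4 ^ lam) K hth (by positivity)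
  have h2 := h.pow hq.ne' (by positivity) (by linarith) e
  rw [← pow_mul (1 / 2 : ℝ)] at h2
  obtain ⟨s, t, ht, hU, hs⟩ := h2.unif hl
  obtain ⟨k, hk⟩ := hP
  refine ⟨q ^ e, s, t, by positivity, ⟨k * e, ?_⟩, ht, hU, ?_⟩
  · rw [pow_mul]; exact pow_dvd_pow_of_dvd hk e
  · have e1 : ((((q ^ e : ℕ) : ℝ)) ^ 2) ^ al = (((q : ℝ) ^ 2) ^ al) ^ e := by
      rw [← pow_rpow_comm (by positivity)]
      congr 1; push_cast; ring
    rw [e1]
    rw [div_pow, lt_div_iff₀ (by positivity)] at he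
    have htp : (0 : ℝ) < (t : ℝ) ^ lam := by
      have : (0 : ℝ) < t := by exact_mod_cast (by omega : 0 < t)
      positivity
    have hc : (0 : ℝ) < (((K * e : ℕ) : ℝ) + 1) * 4 ^ lam := by positivity
    apply lt_of_mul_lt_mul_left _ hc.le
    calc (((K * e : ℕ) : ℝ) + 1) * 4 ^ lam * ((t : ℝ) ^ lam * (((q : ℝ) ^ 2) ^ al) ^ e)
        = (t : ℝ) ^ lam * ((((K * e : ℕ) : ℝ) + 1) * 4 ^ lam * (((q : ℝ) ^ 2) ^ al) ^ e) := by ring
      _ < (t : ℝ) ^ lam * Z ^ e := by gcongr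
      _ ≤ _ := hs

end Vale.Agent.P042
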